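import Vale.Agent.P268.T.H277.Props
import Vale.Agent.P268.T.H545.HPAdm

/-!
# P268, topological half: removal of a letter next to the tip of a hairpin

`Agree i₀ D D'`: the data `D`, `D'` of hairpin forms have the same values on the domain; then the
hairpin forms are equal and the admissible parameters are the same (`HP_congr`, `HAdm_congr`).

`block_ri : BlockHPHom → BlockHPAdm → BlockRI`: the wall moves from `0` to `-5/16`, through the
letter; the data are frozen on the strip `[c - 1/16, c]` next to the wall `c`.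
-/

set_option linter.unusedSectionVars false

namespace Vale.Agent.P268.T.H732

open Set Filter Topology Metric

/-! ### Data which agree on the domain -/

section Agree

variable {V κ ι : Type*} [NormedAddCommGroup V] [InnerProductSpace ℝ V]
  [Fintype ι] [DecidableEq ι]

/-- The data `D`, `D'` agree on the domain. -/
structure Agree (i₀ : ι) (D D' : HData κ (ι → ℝ) V) : Prop where
  b : D'.b = D.b
  n : D'.n = D.n
  c : D'.c = D.c
  r0 : D'.r0 = D.r0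
  bk : ∀ x, ‖x‖ ≤ 1 → x i₀ ≤ D.c → D'.bk x = D.bk x
  nk : ∀ x, ‖x‖ ≤ 1 → x i₀ ≤ D.c → D'.nk x = D.nk x
  bt : ∀ x, ‖x‖ ≤ 1 → x i₀ ≤ D.c → D'.bt x = D.bt x
  nt : ∀ x, ‖x‖ ≤ 1 → x i₀ ≤ D.c → D'.nt x = D.nt x
  m : ∀ x, ‖x‖ ≤ 1 → x i₀ = D.c → D'.m x = D.m x
  ph : ∀ x, ‖x‖ ≤ 1 → x i₀ = D.c → D'.ph x = D.ph x
  nw : ∀ x, ‖x‖ ≤ 1 → x i₀ = D.c → D'.nw x = D.nw x

variable {i₀ : ι} {D D' : HData κ (ι → ℝ) V}

theorem Agree.cen (h : Agree i₀ D D') (hc : |D.c| ≤ 1) (a : κ ⊕ Bool) {x : ι → ℝ}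
    (hx : ‖x‖ ≤ 1) : D'.cen i₀ a x = D.cen i₀ a x := by
  have h1 := norm_lf_le (i₀ := i₀) hx hc
  have h2 := lf_apply_self_le i₀ D.c x
  match a with
  | .inl a => exact congrFun (congrFun h.b a) x
  | .inr true => exact (congrArg D'.bk (by rw [h.c])).trans (h.bk _ h1 h2)
  | .inr false => exact (congrArg D'.bt (by rw [h.c])).trans (h.bt _ h1 h2)

theorem Agree.nor (h : Agree i₀ D D') (hc : |D.c| ≤ 1) (a : κ ⊕ Bool) {x : ι → ℝ}
    (hx : ‖x‖ ≤ 1) : D'.nor i₀ a x = D.nor i₀ a x := by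
  have h1 := norm_lf_le (i₀ := i₀) hx hc
  have h2 := lf_apply_self_le i₀ D.c x
  match a with
  | .inl a => exact congrFun (congrFun h.n a) x
  | .inr true => exact (congrArg D'.nk (by rw [h.c])).trans (h.nk _ h1 h2)
  | .inr false => exact (congrArg D'.nt (by rw [h.c])).trans (h.nt _ h1 h2)

/-- Hairpin forms depend only on the values of the data on the domain. -/
theorem HP_congr [Fintype κ] (h : Agree i₀ D D') (hc : |D.c| ≤ 1) (e : V) (ε R M K : ℝ) :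
    HP i₀ e ε R M K D' = HP i₀ e ε R M K D := by
  have key : hplates i₀ e (fun _ : Unit => ε) (fun _ => R) (fun _ => M) (fun _ => K)
      (fun _ => D') = hplates i₀ e (fun _ : Unit => ε) (fun _ => R) (fun _ => M) (fun _ => K)
      (fun _ => D) := by
    have hw : ∀ s : ℝ × (ι → ℝ), wl i₀ D'.c (kap s) = wl i₀ D.c (kap s) := fun s => by rw [h.c]
    have h1 : ∀ s : ℝ × (ι → ℝ), ‖wl i₀ D.c (kap s)‖ ≤ 1 := fun s =>
      norm_wl_le (norm_kap_le s) hc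
    have h2 : ∀ s : ℝ × (ι → ℝ), wl i₀ D.c (kap s) i₀ = D.c := fun s => wl_apply_self _ _ _
    have hdep : ∀ s : ℝ × (ι → ℝ), D'.dep i₀ K s = D.dep i₀ K s := fun s => by
      unfold HData.dep
      rw [h.c, h.r0]
    have hdom : ∀ (a : κ ⊕ Bool) (s : ℝ × (ι → ℝ)), D'.dom i₀ M K a s = D.dom i₀ M K a s := by
      intro a s
      match a with
      | .inl a => rfl
      | .inr b =>
        simp only [HData.dom]
        rw [h.c, h.r0]
    unfold hplates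
    congr 1
    · funext τ a x
      match a with
      | .slab => rfl
      | .sh a =>
        show x.2 - ‖x.1‖ • D'.cen i₀ a (kap x.1) = x.2 - ‖x.1‖ • D.cen i₀ a (kap x.1)
        rw [h.cen hc a (norm_kap_le _)]
      | .fold =>
        show foldw (D'.dep i₀ K x.1) (D'.ph (wl i₀ D'.c (kap x.1)))
            (x.2 - ‖x.1‖ • D'.m (wl i₀ D'.c (kap x.1))) =
          foldw (D.dep i₀ K x.1) (D.ph (wl i₀ D.c (kap x.1)))
            (x.2 - ‖x.1‖ • D.m (wl i₀ D.c (kap x.1)))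
        rw [hdep, hw, h.ph _ (h1 _) (h2 _), h.m _ (h1 _) (h2 _)]
    · funext τ a x
      match a with
      | .slab => rfl
      | .sh a =>
        show D'.nor i₀ a (kap x.1) = D.nor i₀ a (kap x.1)
        rw [h.nor hc a (norm_kap_le _)]
      | .fold =>
        show D'.nw (wl i₀ D'.c (kap x.1)) = D.nw (wl i₀ D.c (kap x.1))
        rw [hw, h.nw _ (h1 _) (h2 _)]
    · funext τ a x
      match a with
      | .slab => rfl
      | .sh a =>
        show D'.dom i₀ M K a x.1 = D.dom i₀ M K a x.1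
        rw [hdom]
      | .fold =>
        show min (M * (x.1.1 - ‖x.1.2‖ / 2)) (M * (K * wq i₀ D'.c x.1 + 4 * D'.r0 * ‖x.1‖)) =
          min (M * (x.1.1 - ‖x.1.2‖ / 2)) (M * (K * wq i₀ D.c x.1 + 4 * D.r0 * ‖x.1‖))
        rw [h.c, h.r0]
  unfold HP
  rw [key]

/-- Admissibility depends only on the values of the data on the domain. -/
theorem HAdm_congr {ε R M K : ℝ} (h : Agree i₀ D D') (hc : |D.c| ≤ 1)
    (hA : HAdm i₀ ε R M K D) : HAdm i₀ ε R M K D' where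
  hε := hA.hε
  hR := hA.hR
  hM := hA.hM
  hMr := by rw [h.r0]; exact hA.hMr
  hr := by rw [h.r0]; exact hA.hr
  hK := hA.hK
  hb a x hx := by
    rw [h.cen hc a (mem_closedBall_zero_iff.mp hx)]
    exact hA.hb a x hx
  hm x hx hxc := by
    rw [h.c] at hxc
    rw [h.m x (mem_closedBall_zero_iff.mp hx) hxc, h.r0]
    exact hA.hm x hx hxc
  hd a a' ha x hx hx' := by
    rw [h.cen hc a (mem_closedBall_zero_iff.mp hx), h.cen hc a' (mem_closedBall_zero_iff.mp hx)]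
    exact hA.hd a a' ha x hx (fun h1 => h.c ▸ hx' h1)
  ht a x hx h1 μ hμ := by
    rw [h.c, h.r0] at h1
    rw [h.r0] at hμ
    have h2 := norm_wl_le (i₀ := i₀) (mem_closedBall_zero_iff.mp hx) hc
    rw [h.b, h.c, h.m _ h2 (wl_apply_self _ _ _), h.ph _ h2 (wl_apply_self _ _ _)]
    exact hA.ht a x hx h1 μ hμ
  hg x hx h1 h2 := by
    rw [h.c, h.r0] at h1
    rw [h.c] at h2
    have h3 := mem_closedBall_zero_iff.mp hx
    have h4 := norm_wl_le (i₀ := i₀) h3 hc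
    have h5 := wl_apply_self i₀ D.c x
    rw [h.c, h.r0, h.m _ h4 h5, h.ph _ h4 h5, h.nw _ h4 h5, h.bk x h3 h2, h.bt x h3 h2,
      h.nk x h3 h2, h.nt x h3 h2]
    exact hA.hg x hx h1 h2
  h1 := by rw [h.c, h.r0]; exact hA.h1

end Agree

/-! ### Reflections -/

section Refl

variable {V : Type*} [NormedAddCommGroup V] [InnerProductSpace ℝ V]

theorem rfl'_of_perp {g h : V} (hg : inner ℝ g h = 0) : rfl' g h = h := by
  unfold rfl'
  rw [real_inner_comm, hg]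
  simp

theorem rfl'_rfl' {g : V} (hg : ‖g‖ = 1) (h : V) : rfl' g (rfl' g h) = h := by
  unfold rfl'
  rw [inner_sub_left, inner_smul_left, real_inner_self_eq_norm_sq, hg]
  simp only [conj_trivial]
  module

theorem norm_rfl' {g : V} (hg : ‖g‖ = 1) (h : V) : ‖rfl' g h‖ = ‖h‖ := by
  have h1 : ‖rfl' g h‖ ^ 2 = ‖h‖ ^ 2 := by
    unfold rfl'
    rw [norm_sub_sq_real, norm_smul, hg, inner_smul_right, Real.norm_eq_abs, mul_one, sq_abs]
    ring
  exact (pow_left_inj₀ (norm_nonneg _) (norm_nonneg _) two_ne_zero).mp h1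

theorem continuous_rfl' : Continuous fun p : V × V => rfl' p.1 p.2 := by
  unfold rfl'
  exact continuous_snd.sub ((continuous_const.mul (continuous_snd.inner continuous_fst)).smul
    continuous_fst)

end Refl

/-! ### The moving wall -/

section Wall

variable {d : ℕ} {κ : Type}

/-- The freezing map. -/
noncomputable def fz (c : ℝ) (x : Pk d) : Pk d := Function.update x 0 (min (x 0) (c - 1 / 16))

theorem fz_zero (c : ℝ) (x : Pk d) : fz c x 0 = min (x 0) (c - 1 / 16) := by simp [fz]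

theorem fz_of_le {c : ℝ} {x : Pk d} (h : x 0 ≤ c - 1 / 16) : fz c x = x := by
  rw [fz, min_eq_left h, Function.update_eq_self]

theorem fz_eq_of_ge {c : ℝ} {x : Pk d} (h : c - 1 / 16 ≤ x 0) :
    fz c x = Function.update x 0 (c - 1 / 16) := by
  rw [fz, min_eq_right h]

theorem fz_wl {c : ℝ} {x : Pk d} (h : c - 1 / 16 ≤ x 0) : fz c (wl 0 c x) = fz c x := by
  rw [fz_eq_of_ge h, fz_eq_of_ge (by rw [wl_apply_self]; linarith)]
  simp [wl]

theorem norm_fz_le {c : ℝ} {x : Pk d} (hx : ‖x‖ ≤ 1) (h0 : -5 / 16 ≤ c) (h1 : c ≤ 0) :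
    ‖fz c x‖ ≤ 1 := by
  refine norm_update_le zero_le_one hx ?_
  have h2 : |x 0| ≤ 1 := (norm_le_pi_norm x 0).trans hx
  rcases min_choice (x 0) (c - 1 / 16) with h | h <;> rw [h]
  · exact h2
  · rw [abs_le]; constructor <;> linarith

theorem norm_fz_eq {c : ℝ} {x : Pk d} (hx : ‖x‖ = 1) (h0 : -5 / 16 ≤ c) (h1 : c ≤ 0)
    (hxc : x 0 ≤ c) : ‖fz c x‖ = 1 := by
  refine le_antisymm (norm_fz_le hx.le h0 h1) ?_
  obtain ⟨i, hi⟩ : ∃ i, |x i| = 1 := by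
    by_contra hcon
    push Not at hcon
    have h1 : ∀ i, ‖x i‖ < 1 := fun i =>
      lt_of_le_of_ne ((norm_le_pi_norm x i).trans hx.le) (hcon i)
    have h2 : ‖x‖ < 1 := (pi_norm_lt_iff one_pos).mpr h1
    exact absurd hx h2.ne
  by_cases h : i = 0
  · subst h
    have h2 : x 0 = -1 := by
      rcases (abs_eq zero_le_one).mp hi with h3 | h3
      · linarith
      · exact h3
    rw [fz_of_le (by linarith)]
    exact hx.ge
  · have h2 : fz c x i = x i := by simp [fz, h]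
    calc (1 : ℝ) = |x i| := hi.symm
      _ = ‖fz c x i‖ := by rw [h2, Real.norm_eq_abs]
      _ ≤ ‖fz c x‖ := norm_le_pi_norm _ _

theorem fz_le {c : ℝ} (x : Pk d) : fz c x 0 ≤ c - 1 / 16 := by
  rw [fz_zero]; exact min_le_right _ _

theorem fz_le' {c : ℝ} (x : Pk d) (h1 : c ≤ 0) : fz c x 0 ≤ 0 := (fz_le x).trans (by linarith)

theorem continuous_fz : Continuous fun q : ℝ × Pk d => fz q.1 q.2 := by
  unfold fz
  refine Continuous.update continuous_snd 0 ?_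
  fun_prop

/-- The data with the wall at `c`. -/
noncomputable def wd (D : HData κ (Pk d) (Vk d)) (G : Pk d → Vk d) (T₀ : Vk d) (c : ℝ) :
    HData κ (Pk d) (Vk d) where
  b := D.b
  n := D.n
  bk x := D.bk (fz c x)
  nk x := D.nk (fz c x)
  bt := D.bt
  nt := D.nt
  m x := T₀ + D.r0 • G (fz c x)
  ph x := G (fz c x)
  nw x := rfl' (G (fz c x)) (frk d).h
  r0 := D.r0
  c := c

/-- Hypotheses for the moving wall. -/
structure RIHyp (D : HData κ (Pk d) (Vk d)) (G : Pk d → Vk d) (T₀ e' : Vk d) : Prop where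
  hD : HPData 0 (frk d).h D
  hc : D.c = 0
  ht : ∀ x, ‖x‖ ≤ 1 → x 0 ≤ 0 → D.bt x = T₀ ∧ D.nt x = (frk d).h
  hk : ∀ x, ‖x‖ ≤ 1 → -3 / 8 ≤ x 0 → x 0 ≤ 0 →
    D.bk x = T₀ + (2 * D.r0) • G x ∧ D.nk x = rfl' (G x) (frk d).h
  hG : ContinuousOn G (closedBall 0 1)
  nG : ∀ x, ‖x‖ ≤ 1 → ‖G x‖ = 1
  oG : ∀ x, ‖x‖ = 1 → inner ℝ (G x) (frk d).h = 0
  eG : ∀ x, ‖x‖ ≤ 1 → (x 0 ≤ -3 / 8 ∨ -1 / 8 ≤ x 0) → G x = e'
  tip : ∀ x, ‖x‖ ≤ 1 → x 0 = 0 → D.m x = T₀ + D.r0 • e' ∧ D.ph x = e' ∧ D.nw x = (frk d).h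
  far : ∀ i x, ‖x‖ ≤ 1 → -3 / 8 ≤ x 0 → x 0 ≤ 0 → 2 * D.r0 < ‖D.b i x - T₀‖

theorem exists_sph : ∃ x : Pk d, ‖x‖ = 1 ∧ x 0 = -1 := by
  refine ⟨fun _ => -1, ?_, rfl⟩
  rw [pi_norm_const]
  norm_num

variable {D : HData κ (Pk d) (Vk d)} {G : Pk d → Vk d} {T₀ e' : Vk d}

theorem RIHyp.perp (h : RIHyp D G T₀ e') : inner ℝ e' (frk d).h = 0 := by
  obtain ⟨x, hx, hx0⟩ := exists_sph (d := d)
  rw [← h.eG x hx.le (Or.inl (by rw [hx0]; norm_num))]
  exact h.oG x hx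

theorem RIHyp.r0_pos (h : RIHyp D G T₀ e') : 0 < D.r0 := h.hD.hr () (mem_univ _)

theorem RIHyp.perpT (h : RIHyp D G T₀ e') : inner ℝ T₀ (frk d).h = 0 := by
  obtain ⟨x, hx, hx0⟩ := exists_sph (d := d)
  have h1 := (h.hD.hbt () (mem_univ _) x hx (by rw [hx0, h.hc]; norm_num)).1
  rwa [(h.ht x hx.le (by rw [hx0]; norm_num)).1] at h1

/-- The moving wall. -/
theorem RIHyp.fam (h : RIHyp D G T₀ e') :
    HPFam (Icc (0 : ℝ) 1) 0 (frk d).h (fun τ => wd D G T₀ (-5 / 16 * τ)) := by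
  have hc0 : ∀ τ ∈ Icc (0 : ℝ) 1, -5 / 16 ≤ -5 / 16 * τ := fun τ hτ => by linarith [hτ.2]
  have hc1 : ∀ τ ∈ Icc (0 : ℝ) 1, -5 / 16 * τ ≤ 0 := fun τ hτ => by linarith [hτ.1]
  have hr0 := h.r0_pos
  have hfz : Continuous fun q : ℝ × Pk d => fz (-5 / 16 * q.1) q.2 :=
    continuous_fz.comp (by fun_prop : Continuous fun q : ℝ × Pk d => (-5 / 16 * q.1, q.2))
  have hGz : ∀ S : Set (ℝ × Pk d), (∀ q ∈ S, q.1 ∈ Icc (0 : ℝ) 1 ∧ ‖q.2‖ ≤ 1) →
      ContinuousOn (fun q : ℝ × Pk d => G (fz (-5 / 16 * q.1) q.2)) S := fun S hS =>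
    h.hG.comp hfz.continuousOn fun q hq => mem_closedBall_zero_iff.mpr
      (norm_fz_le (hS q hq).2 (hc0 _ (hS q hq).1) (hc1 _ (hS q hq).1))
  have hmap : MapsTo (fun q : ℝ × Pk d => (((), fz (-5 / 16 * q.1) q.2) : Unit × Pk d))
      {q | q.1 ∈ Icc (0 : ℝ) 1 ∧ ‖q.2‖ ≤ 1 ∧ q.2 0 ≤ -5 / 16 * q.1}
      {q | q.1 ∈ (univ : Set Unit) ∧ ‖q.2‖ ≤ 1 ∧ q.2 0 ≤ D.c} := fun q hq =>
    ⟨mem_univ _, norm_fz_le hq.2.1 (hc0 _ hq.1) (hc1 _ hq.1), by
      show fz (-5 / 16 * q.1) q.2 0 ≤ D.c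
      rw [h.hc]; exact fz_le' _ (hc1 _ hq.1)⟩
  have hmap' : MapsTo (fun q : ℝ × Pk d => (((), q.2) : Unit × Pk d))
      {q | q.1 ∈ Icc (0 : ℝ) 1 ∧ ‖q.2‖ ≤ 1 ∧ q.2 0 ≤ -5 / 16 * q.1}
      {q | q.1 ∈ (univ : Set Unit) ∧ ‖q.2‖ ≤ 1 ∧ q.2 0 ≤ D.c} := fun q hq =>
    ⟨mem_univ _, hq.2.1, by rw [h.hc]; exact hq.2.2.trans (hc1 _ hq.1)⟩
  have hcz : Continuous fun q : ℝ × Pk d => (((), fz (-5 / 16 * q.1) q.2) : Unit × Pk d) :=
    continuous_const.prodMk hfz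
  have hcz' : Continuous fun q : ℝ × Pk d => (((), q.2) : Unit × Pk d) :=
    continuous_const.prodMk continuous_snd
  -- membership of the frozen point, in the collar
  have hcol : ∀ τ ∈ Icc (0 : ℝ) 1, ∀ x : Pk d, ‖x‖ ≤ 1 → -5 / 16 * τ - 1 / 16 ≤ x 0 →
      x 0 ≤ -5 / 16 * τ → ‖fz (-5 / 16 * τ) x‖ ≤ 1 ∧ -3 / 8 ≤ fz (-5 / 16 * τ) x 0 ∧
        fz (-5 / 16 * τ) x 0 ≤ 0 := fun τ hτ x hx h1 _ => by
    refine ⟨norm_fz_le hx (hc0 τ hτ) (hc1 τ hτ), ?_, fz_le' _ (hc1 τ hτ)⟩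
    rw [fz_zero, min_eq_right h1]
    linarith [hc0 τ hτ]
  have hGw : ContinuousOn (fun q : ℝ × Pk d => G (fz (-5 / 16 * q.1) q.2))
      {q | q.1 ∈ Icc (0 : ℝ) 1 ∧ ‖q.2‖ ≤ 1 ∧ q.2 0 = -5 / 16 * q.1} :=
    hGz _ fun q hq => ⟨hq.1, hq.2.1⟩
  have hGm : ContinuousOn (fun q : ℝ × Pk d => T₀ + D.r0 • G (fz (-5 / 16 * q.1) q.2))
      {q | q.1 ∈ Icc (0 : ℝ) 1 ∧ ‖q.2‖ ≤ 1 ∧ q.2 0 = -5 / 16 * q.1} := by
    have h1 : Continuous fun v : Vk d => T₀ + D.r0 • v := by fun_prop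
    exact h1.comp_continuousOn hGw
  have hmapo : MapsTo (fun q : ℝ × Pk d => (((), q.2) : Unit × Pk d))
      (Icc (0 : ℝ) 1 ×ˢ closedBall 0 1) ((univ : Set Unit) ×ˢ closedBall 0 1) := fun q hq =>
    ⟨mem_univ _, hq.2⟩
  constructor
  · -- oth
    exact
      { cb := fun a => (h.hD.oth.cb a).comp hcz'.continuousOn hmapo
        cn := fun a => (h.hD.oth.cn a).comp hcz'.continuousOn hmapo
        nn := fun t _ a x hx => h.hD.oth.nn () (mem_univ _) a x hx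
        inj := fun t _ x hx => h.hD.oth.inj () (mem_univ _) x hx
        bh := fun t _ a x hx => h.hD.oth.bh () (mem_univ _) a x hx
        nh := fun t _ a x hx => h.hD.oth.nh () (mem_univ _) a x hx }
  · exact (by fun_prop : Continuous fun τ : ℝ => -5 / 16 * τ).continuousOn
  · exact continuousOn_const
  · intro τ hτ
    show |(-5 / 16 * τ)| < 1
    rw [abs_lt]
    constructor <;> linarith [hc0 τ hτ, hc1 τ hτ]
  · exact fun τ _ => hr0
  · exact h.hD.cbk.comp hcz.continuousOn hmap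
  · exact h.hD.cnk.comp hcz.continuousOn hmap
  · exact h.hD.cbt.comp hcz'.continuousOn hmap'
  · exact h.hD.cnt.comp hcz'.continuousOn hmap'
  · exact hGm
  · exact hGw
  · exact continuous_rfl'.comp_continuousOn (hGw.prodMk continuousOn_const)
  · -- nnk
    intro τ hτ x hx hxc
    exact h.hD.nnk () (mem_univ _) _ (norm_fz_le hx (hc0 τ hτ) (hc1 τ hτ))
      (by rw [h.hc]; exact fz_le' _ (hc1 τ hτ))
  · intro τ hτ x hx hxc
    exact h.hD.nnt () (mem_univ _) x hx (by rw [h.hc]; exact le_trans hxc (hc1 τ hτ))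
  · intro τ hτ x hx hxc
    exact h.nG _ (norm_fz_le hx (hc0 τ hτ) (hc1 τ hτ))
  · intro τ hτ x hx hxc
    show ‖rfl' (G (fz (-5 / 16 * τ) x)) (frk d).h‖ = 1
    rw [norm_rfl' (h.nG _ (norm_fz_le hx (hc0 τ hτ) (hc1 τ hτ))), (frk d).hh]
  · -- hbk
    intro τ hτ x hx hxc
    exact h.hD.hbk () (mem_univ _) _ (norm_fz_eq hx (hc0 τ hτ) (hc1 τ hτ) hxc)
      (by rw [h.hc]; exact fz_le' _ (hc1 τ hτ))
  · intro τ hτ x hx hxc
    exact h.hD.hbt () (mem_univ _) x hx (by rw [h.hc]; exact le_trans hxc (hc1 τ hτ))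
  · -- hm
    intro τ hτ x hx hxc
    have h1 := h.oG _ (norm_fz_eq hx (hc0 τ hτ) (hc1 τ hτ) (le_of_eq hxc))
    refine ⟨?_, h1, rfl'_of_perp h1⟩
    show inner ℝ (T₀ + D.r0 • G (fz (-5 / 16 * τ) x)) (frk d).h = 0
    rw [inner_add_left, inner_smul_left, h1, h.perpT]
    simp
  · -- dkt
    intro τ hτ x hx hxc
    have h1 := norm_fz_le hx (hc0 τ hτ) (hc1 τ hτ)
    have h2 : fz (-5 / 16 * τ) x 0 ≤ 0 := fz_le' _ (hc1 τ hτ)
    have h3 := h.hD.dkt () (mem_univ _) _ h1 (by rw [h.hc]; exact h2)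
    rw [(h.ht _ h1 h2).1] at h3
    show D.bk (fz (-5 / 16 * τ) x) ≠ D.bt x
    rw [(h.ht x hx (le_trans hxc (hc1 τ hτ))).1]
    exact h3
  · -- dk
    intro τ hτ x hx hxc a
    show D.bk (fz (-5 / 16 * τ) x) ≠ D.b a x
    have hx0 : x 0 ≤ 0 := le_trans hxc (hc1 τ hτ)
    rcases le_total (x 0) (-5 / 16 * τ - 1 / 16) with h4 | h4
    · rw [fz_of_le h4]
      exact h.hD.dk () (mem_univ _) x hx (by rw [h.hc]; exact hx0) a
    · obtain ⟨h1, h2, h3⟩ := hcol τ hτ x hx h4 hxc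
      intro h5
      have h6 := h.far a x hx (by linarith [hc0 τ hτ]) hx0
      rw [← h5, (h.hk _ h1 h2 h3).1, add_sub_cancel_left, norm_smul, h.nG _ h1,
        Real.norm_eq_abs, abs_of_pos (by linarith), mul_one] at h6
      exact lt_irrefl _ h6
  · -- dt
    intro τ hτ x hx hxc a
    exact h.hD.dt () (mem_univ _) x hx (by rw [h.hc]; exact le_trans hxc (hc1 τ hτ)) a
  · -- dtip
    intro τ hτ x hx hxc a μ hμ h5
    have hxc' : x 0 = -5 / 16 * τ := hxc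
    have h5' : D.b a x = T₀ + D.r0 • G (fz (-5 / 16 * τ) x) + μ • G (fz (-5 / 16 * τ) x) := h5
    have hμ' : |μ| ≤ D.r0 := hμ
    have h6 := h.far a x hx (by linarith [hc0 τ hτ]) (by linarith [hc1 τ hτ])
    rw [h5', add_assoc, add_sub_cancel_left, ← add_smul, norm_smul,
      h.nG _ (norm_fz_le hx (hc0 τ hτ) (hc1 τ hτ)), mul_one, Real.norm_eq_abs] at h6
    have h7 := abs_le.mp hμ'
    have h8 : |D.r0 + μ| ≤ 2 * D.r0 := by rw [abs_le]; constructor <;> linarith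
    linarith
  · -- rig
    refine ⟨1 / 16, by norm_num, fun τ hτ x hx h4 hxc => ?_⟩
    have h4' : -5 / 16 * τ - 1 / 16 ≤ x 0 := h4
    obtain ⟨h1, h2, h3⟩ := hcol τ hτ x hx h4' hxc
    have hk := h.hk _ h1 h2 h3
    have hgn := h.nG _ h1
    have hx0 : x 0 ≤ 0 := le_trans hxc (hc1 τ hτ)
    have ht := h.ht x hx hx0
    show D.bk (fz (-5 / 16 * τ) x) =
        T₀ + D.r0 • G (fz (-5 / 16 * τ) (wl 0 (-5 / 16 * τ) x)) +
          D.r0 • G (fz (-5 / 16 * τ) (wl 0 (-5 / 16 * τ) x)) ∧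
      D.bt x = T₀ + D.r0 • G (fz (-5 / 16 * τ) (wl 0 (-5 / 16 * τ) x)) -
          D.r0 • G (fz (-5 / 16 * τ) (wl 0 (-5 / 16 * τ) x)) ∧
      D.nk (fz (-5 / 16 * τ) x) =
        rfl' (G (fz (-5 / 16 * τ) (wl 0 (-5 / 16 * τ) x))) (frk d).h ∧
      D.nt x = rfl' (G (fz (-5 / 16 * τ) (wl 0 (-5 / 16 * τ) x)))
        (rfl' (G (fz (-5 / 16 * τ) (wl 0 (-5 / 16 * τ) x))) (frk d).h)
    rw [fz_wl h4', hk.1, hk.2, ht.1, ht.2, rfl'_rfl' hgn]
    refine ⟨by module, by abel, rfl, rfl⟩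

/-- At the start the data are the given ones. -/
theorem RIHyp.start (h : RIHyp D G T₀ e') : Agree 0 D (wd D G T₀ (-5 / 16 * 0)) := by
  have key : ∀ x : Pk d, ‖x‖ ≤ 1 → x 0 ≤ 0 → -1 / 16 ≤ x 0 →
      ‖fz (0 : ℝ) x‖ ≤ 1 ∧ -3 / 8 ≤ fz 0 x 0 ∧ fz 0 x 0 ≤ 0 ∧ -1 / 8 ≤ fz 0 x 0 :=
    fun x hx h0 h1 => by
    refine ⟨norm_fz_le hx (by norm_num) le_rfl, ?_, fz_le' _ le_rfl, ?_⟩ <;>
    · rw [fz_zero, min_eq_right (by linarith)]
      norm_num
  have e0 : (-5 / 16 * 0 : ℝ) = 0 := by norm_num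
  rw [e0]
  constructor
  · rfl
  · rfl
  · exact h.hc.symm
  · rfl
  · intro x hx hxc
    rw [h.hc] at hxc
    show D.bk (fz 0 x) = D.bk x
    rcases le_total (x 0) (-1 / 16) with h1 | h1
    · rw [fz_of_le (by linarith)]
    · obtain ⟨k1, k2, k3, k4⟩ := key x hx hxc h1
      rw [(h.hk _ k1 k2 k3).1, (h.hk x hx (by linarith) hxc).1, h.eG _ k1 (Or.inr k4),
        h.eG x hx (Or.inr (by linarith))]
  · intro x hx hxc
    rw [h.hc] at hxc
    show D.nk (fz 0 x) = D.nk x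
    rcases le_total (x 0) (-1 / 16) with h1 | h1
    · rw [fz_of_le (by linarith)]
    · obtain ⟨k1, k2, k3, k4⟩ := key x hx hxc h1
      rw [(h.hk _ k1 k2 k3).2, (h.hk x hx (by linarith) hxc).2, h.eG _ k1 (Or.inr k4),
        h.eG x hx (Or.inr (by linarith))]
  · intros; rfl
  · intros; rfl
  · intro x hx hxc
    rw [h.hc] at hxc
    obtain ⟨k1, k2, k3, k4⟩ := key x hx hxc.le (by rw [hxc]; norm_num)
    show T₀ + D.r0 • G (fz 0 x) = D.m x
    rw [(h.tip x hx hxc).1, h.eG _ k1 (Or.inr k4)]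
  · intro x hx hxc
    rw [h.hc] at hxc
    obtain ⟨k1, k2, k3, k4⟩ := key x hx hxc.le (by rw [hxc]; norm_num)
    show G (fz 0 x) = D.ph x
    rw [(h.tip x hx hxc).2.1, h.eG _ k1 (Or.inr k4)]
  · intro x hx hxc
    rw [h.hc] at hxc
    obtain ⟨k1, k2, k3, k4⟩ := key x hx hxc.le (by rw [hxc]; norm_num)
    show rfl' (G (fz 0 x)) (frk d).h = D.nw x
    rw [(h.tip x hx hxc).2.2, h.eG _ k1 (Or.inr k4), rfl'_of_perp h.perp]

/-- At the end the data do not depend on the letter. -/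
theorem RIHyp.stop {D' : HData κ (Pk d) (Vk d)} {G' : Pk d → Vk d} (h : RIHyp D G T₀ e')
    (h' : RIHyp D' G' T₀ e') (hb : D'.b = D.b) (hn : D'.n = D.n) (hr : D'.r0 = D.r0)
    (hk : ∀ x, ‖x‖ ≤ 1 → x 0 ≤ -3 / 8 → D'.bk x = D.bk x ∧ D'.nk x = D.nk x) :
    Agree 0 (wd D G T₀ (-5 / 16 * 1)) (wd D' G' T₀ (-5 / 16 * 1)) := by
  have e0 : (-5 / 16 * 1 : ℝ) = -5 / 16 := by norm_num
  rw [e0]
  have key : ∀ x : Pk d, ‖x‖ ≤ 1 → ‖fz (-5 / 16 : ℝ) x‖ ≤ 1 ∧ fz (-5 / 16) x 0 ≤ -3 / 8 :=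
    fun x hx => ⟨norm_fz_le hx le_rfl (by norm_num), (fz_le x).trans (by norm_num)⟩
  constructor
  · exact hb
  · exact hn
  · rfl
  · exact hr
  · intro x hx _
    exact (hk _ (key x hx).1 (key x hx).2).1
  · intro x hx _
    exact (hk _ (key x hx).1 (key x hx).2).2
  · intro x hx hxc
    have hxc' : x 0 ≤ -5 / 16 := hxc
    show D'.bt x = D.bt x
    rw [(h'.ht x hx (by linarith)).1, (h.ht x hx (by linarith)).1]
  · intro x hx hxc
    have hxc' : x 0 ≤ -5 / 16 := hxc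
    show D'.nt x = D.nt x
    rw [(h'.ht x hx (by linarith)).2, (h.ht x hx (by linarith)).2]
  · intro x hx _
    show T₀ + D'.r0 • G' (fz (-5 / 16) x) = T₀ + D.r0 • G (fz (-5 / 16) x)
    rw [hr, h.eG _ (key x hx).1 (Or.inl (key x hx).2), h'.eG _ (key x hx).1 (Or.inl (key x hx).2)]
  · intro x hx _
    show G' (fz (-5 / 16) x) = G (fz (-5 / 16) x)
    rw [h.eG _ (key x hx).1 (Or.inl (key x hx).2), h'.eG _ (key x hx).1 (Or.inl (key x hx).2)]
  · intro x hx _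
    show rfl' (G' (fz (-5 / 16) x)) (frk d).h = rfl' (G (fz (-5 / 16) x)) (frk d).h
    rw [h.eG _ (key x hx).1 (Or.inl (key x hx).2), h'.eG _ (key x hx).1 (Or.inl (key x hx).2)]

/-- The data of a member of a family. -/
theorem data_of_fam {T : Type*} [TopologicalSpace T] {s : Set T} {V ι : Type*}
    [NormedAddCommGroup V] [InnerProductSpace ℝ V] [Fintype ι] [DecidableEq ι] {i₀ : ι} {e : V}
    {D : T → HData κ (ι → ℝ) V} (h : HPFam s i₀ e D) {t : T} (ht : t ∈ s) :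
    HPData i₀ e (D t) := by
  have hc : Continuous fun q : Unit × (ι → ℝ) => ((t, q.2) : T × (ι → ℝ)) :=
    continuous_const.prodMk continuous_snd
  obtain ⟨δ, hδ, hrig⟩ := h.rig
  exact
    { oth :=
        { cb := fun a => (h.oth.cb a).comp hc.continuousOn fun q hq => ⟨ht, hq.2⟩
          cn := fun a => (h.oth.cn a).comp hc.continuousOn fun q hq => ⟨ht, hq.2⟩
          nn := fun _ _ a x hx => h.oth.nn t ht a x hx
          inj := fun _ _ x hx => h.oth.inj t ht x hx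
          bh := fun _ _ a x hx => h.oth.bh t ht a x hx
          nh := fun _ _ a x hx => h.oth.nh t ht a x hx }
      cc := continuousOn_const
      cr := continuousOn_const
      hc := fun _ _ => h.hc t ht
      hr := fun _ _ => h.hr t ht
      cbk := h.cbk.comp hc.continuousOn fun q hq => ⟨ht, hq.2⟩
      cnk := h.cnk.comp hc.continuousOn fun q hq => ⟨ht, hq.2⟩
      cbt := h.cbt.comp hc.continuousOn fun q hq => ⟨ht, hq.2⟩
      cnt := h.cnt.comp hc.continuousOn fun q hq => ⟨ht, hq.2⟩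
      cm := h.cm.comp hc.continuousOn fun q hq => ⟨ht, hq.2⟩
      cph := h.cph.comp hc.continuousOn fun q hq => ⟨ht, hq.2⟩
      cnw := h.cnw.comp hc.continuousOn fun q hq => ⟨ht, hq.2⟩
      nnk := fun _ _ => h.nnk t ht
      nnt := fun _ _ => h.nnt t ht
      nph := fun _ _ => h.nph t ht
      nnw := fun _ _ => h.nnw t ht
      hbk := fun _ _ => h.hbk t ht
      hbt := fun _ _ => h.hbt t ht
      hm := fun _ _ => h.hm t ht
      dkt := fun _ _ => h.dkt t ht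
      dk := fun _ _ => h.dk t ht
      dt := fun _ _ => h.dt t ht
      dtip := fun _ _ => h.dtip t ht
      rig := ⟨δ, hδ, fun _ _ => hrig t ht⟩ }

/-- **Removal of a letter next to the tip (R-I).** -/
theorem block_ri (hHom : BlockHPHom) (hAdm : BlockHPAdm) : BlockRI := by
  intro d κ _ D D' G T₀ e' hD hD' hb hn hc hc' hr htt htip hout hin hG nG oG eG hfar
    ε R M K ε' R' M' K' hA hA'
  -- the letterless data
  have hperp : inner ℝ e' (frk d).h = 0 := by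
    obtain ⟨x, hx, hx0⟩ := exists_sph (d := d)
    rw [← eG x hx.le (Or.inl (by rw [hx0]; norm_num))]
    exact oG x hx
  have hne : ‖e'‖ = 1 := by
    obtain ⟨x, hx, hx0⟩ := exists_sph (d := d)
    rw [← eG x hx.le (Or.inl (by rw [hx0]; norm_num))]
    exact nG x hx.le
  have H : RIHyp D (fun _ => e') T₀ e' :=
    { hD := hD
      hc := hc
      ht := fun x hx h0 => ⟨(htt x hx h0).1, (htt x hx h0).2.1⟩
      hk := fun x hx h0 h1 => ⟨(hin x hx h0 h1).1, by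
        rw [(hin x hx h0 h1).2.1, rfl'_of_perp hperp]⟩
      hG := continuousOn_const
      nG := fun _ _ => hne
      oG := fun _ _ => hperp
      eG := fun _ _ _ => rfl
      tip := fun x hx h0 => ⟨(htip x hx h0).1, (htip x hx h0).2.1, (htip x hx h0).2.2.1⟩
      far := hfar }
  have H' : RIHyp D' G T₀ e' :=
    { hD := hD'
      hc := hc'
      ht := fun x hx h0 => (htt x hx h0).2.2
      hk := fun x hx h0 h1 => ⟨by rw [hr]; exact (hin x hx h0 h1).2.2.1,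
        (hin x hx h0 h1).2.2.2⟩
      hG := hG
      nG := nG
      oG := oG
      eG := eG
      tip := fun x hx h0 => by rw [hr]; exact (htip x hx h0).2.2.2
      far := fun i x hx h0 h1 => by rw [hr, hb]; exact hfar i x hx h0 h1 }
  obtain ⟨ε₁, R₁, M₁, K₁, hA₁⟩ := hAdm d κ _ (data_of_fam H.fam
    (right_mem_Icc.mpr zero_le_one))
  have hstop := H.stop H' hb hn hr hout
  have hc1 : |(wd D (fun _ => e') T₀ (-5 / 16 * 1)).c| ≤ 1 := by
    show |(-5 / 16 * 1 : ℝ)| ≤ 1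
    rw [abs_le]; constructor <;> norm_num
  have v1 := hHom d κ _ ε R M K ε₁ R₁ M₁ K₁ H.fam
    (HAdm_congr H.start (by rw [hc]; norm_num) hA) hA₁
  have v2 := hHom d κ _ ε' R' M' K' ε₁ R₁ M₁ K₁ H'.fam
    (HAdm_congr H'.start (by rw [hc']; norm_num) hA') (HAdm_congr hstop hc1 hA₁)
  rw [HP_congr H.start (by rw [hc]; norm_num)] at v1
  rw [HP_congr H'.start (by rw [hc']; norm_num), HP_congr hstop hc1] at v2
  exact v1.trans v2.symm

end Wall

end Vale.Agent.P268.T.H732
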