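import Vale.Agent.P268.T.H277.Facts
import Vale.Agent.P268.T.H732.RI

/-!
# P268, topological half, block B6c: the first two steps of the slide

* `prep_fam`, `prep` (L2): the family from `hd0` to `hd1` (the constant sheet `z` moves away, the
  ramp of the lift is moved from `[-1/2, -1/4]` to `[-1/2, -3/8]`);
* `ri` (L3): the letter at the tip, `hd1` to `hd2`, from `BlockRI`.
-/

set_option linter.unusedSectionVars false

namespace Vale.Agent.P268.T.H732

open Set Filter Topology Metric
open Vale.Agent.P268.T.H83 Vale.Agent.P268.T.H277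

variable {d : ℕ} {A : Type} [DecidableEq A]

/-! ### Geometry -/

section Geom

variable {c ν : A → Pk d → Vk d} {v : A → Vk d} {z j k : A} {e2 : Vk d} {L r : ℝ}

theorem zero_dom : ‖(0 : Pk d)‖ ≤ 1 ∧ (0 : Pk d) 0 = 0 := ⟨by simp, rfl⟩

theorem vi_ne_vk (h : SD c ν v z j k) {i : A} (hik : i ≠ k) : v i ≠ v k := by
  intro he
  have h1 := h.dat.inj () (mem_univ _) (0 : Pk d) (by simp)
  have h2 : c i 0 = c k 0 := by
    rw [(h.left i hik 0 zero_dom.1 (by rw [zero_dom.2]; norm_num)).1,
      (h.right 0 zero_dom.1 (by rw [zero_dom.2]; norm_num)).1, he]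
  exact hik (h1 h2)

theorem ck_ne_vi (h : SD c ν v z j k) {i : A} (hik : i ≠ k) {x : Pk d} (hx : ‖x‖ ≤ 1) :
    c k x ≠ v i := by
  intro he
  rcases le_total (x 0) (1 / 4) with h1 | h1
  · have h2 := h.dat.inj () (mem_univ _) x (mem_closedBall_zero_iff.mpr hx)
    exact hik (h2 (((h.left i hik x hx h1).1).trans he.symm))
  · rw [(h.right x hx (by linarith)).1] at he
    exact vi_ne_vk h hik he.symm

theorem gLpos (g : SG c v z j k e2 L r) (h : SD c ν v z j k) : 8 ≤ L := by
  have h1 := g.hL k h.zk.symm 0 zero_dom.1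
  linarith [norm_nonneg (c k 0 - v k)]

/-- Points far above. -/
theorem far_ne (g : SG c v z j k e2 L r) {w : Vk d} (hw : ‖w‖ ≤ 1) {i : A} (hi : i ≠ z)
    {x : Pk d} (hx : ‖x‖ ≤ 1) : 1 < ‖c i x - (v k + L • e2 + w)‖ := by
  have h1 := g.hL i hi x hx
  have h0 : 0 ≤ L := by linarith [norm_nonneg (c i x - v k)]
  have h2 : L = ‖L • e2‖ := by rw [norm_smul, g.e2n, mul_one, Real.norm_eq_abs, abs_of_nonneg h0]
  have h3 : L • e2 = (c i x - v k) - (c i x - (v k + L • e2 + w)) - w := by module
  have h4 : ‖(c i x - v k) - (c i x - (v k + L • e2 + w)) - w‖ ≤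
      ‖c i x - v k‖ + ‖c i x - (v k + L • e2 + w)‖ + ‖w‖ :=
    (norm_sub_le _ _).trans (add_le_add (norm_sub_le _ _) le_rfl)
  rw [← h3] at h4
  linarith

theorem e2e (g : SG c v z j k e2 L r) (h : SD c ν v z j k) : inner ℝ e2 (v k - v j) = 0 := by
  rw [inner_sub_right, g.e2v k h.zk.symm, g.e2v j h.zj.symm, sub_zero]

theorem geh (g : SG c v z j k e2 L r) (h : SD c ν v z j k) :
    inner ℝ (v k - v j) (frk d).h = 0 := by
  rw [inner_sub_left, g.vh k h.zk.symm, g.vh j h.zj.symm, sub_zero]

theorem gsmall {s : ℝ} (g : SG c v z j k e2 L r) (h0 : 0 ≤ s) (h4 : s ≤ 4) :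
    ‖-((s * r) • (v k - v j))‖ ≤ 1 := by
  have hr := g.hr
  have hr8 := g.hr8
  rw [norm_neg, norm_smul, g.n1, mul_one, Real.norm_eq_abs, abs_of_nonneg (by positivity)]
  nlinarith

/-- The strand with a ramp avoids the points near the top. -/
theorem ramp_ne (h : SD c ν v z j k) (g : SG c v z j k e2 L r) {x : Pk d} (hx : ‖x‖ ≤ 1)
    {s a : ℝ} (hs : x 0 < -1 / 2 → s = 0) (ha : 0 < a) (ha4 : a ≤ 4) :
    c k x + (s * L) • e2 ≠ v k + L • e2 - (a * r) • (v k - v j) := by
  intro he
  have hr := g.hr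
  rcases lt_or_ge (x 0) (-1 / 2) with h1 | h1
  · rw [hs h1, zero_mul, zero_smul, add_zero, sub_eq_add_neg] at he
    have h2 := far_ne g (w := -((a * r) • (v k - v j))) (gsmall g ha.le ha4) h.zk.symm hx
    rw [he, sub_self, norm_zero] at h2
    linarith
  · rw [(h.right x hx h1).1] at he
    have h2 : (a * r) • (v k - v j) = (L - s * L) • e2 := by
      have : (a * r) • (v k - v j) = (v k + L • e2) -
        (v k + L • e2 - (a * r) • (v k - v j)) := by module
      rw [this, ← he]
      module
    have h3 : inner ℝ ((a * r) • (v k - v j)) (v k - v j) = (0 : ℝ) := by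
      rw [h2, inner_smul_left, e2e g h, mul_zero]
    rw [inner_smul_left, real_inner_self_eq_norm_sq, g.n1] at h3
    simp only [conj_trivial, one_pow, mul_one] at h3
    exact absurd h3 (by positivity)

/-- The strand with a ramp avoids the other strands. -/
theorem ramp_ne_v (h : SD c ν v z j k) (g : SG c v z j k e2 L r) {x : Pk d} (hx : ‖x‖ ≤ 1)
    {s : ℝ} (hs : x 0 < -1 / 2 → s = 0) {i : A} (hiz : i ≠ z) (hik : i ≠ k) :
    c k x + (s * L) • e2 ≠ v i := by
  intro he
  rcases lt_or_ge (x 0) (-1 / 2) with h1 | h1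
  · rw [hs h1, zero_mul, zero_smul, add_zero] at he
    exact ck_ne_vi h hik hx he
  · rw [(h.right x hx h1).1] at he
    have hL := gLpos g h
    have h2 : inner ℝ e2 (v k + (s * L) • e2) = inner ℝ e2 (v i) := by rw [he]
    rw [inner_add_right, inner_smul_right, g.e2v k h.zk.symm, g.e2v i hiz,
      real_inner_self_eq_norm_sq, g.e2n, one_pow, mul_one, zero_add] at h2
    rw [h2, zero_smul, add_zero] at he
    exact vi_ne_vk h hik he.symm

theorem continuousOn_c (h : SD c ν v z j k) (i : A) : ContinuousOn (c i) (closedBall 0 1) :=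
  (h.dat.cb i).comp (f := fun x : Pk d => ((), x)) (by fun_prop) (fun x hx => ⟨mem_univ _, hx⟩)

theorem continuousOn_nu (h : SD c ν v z j k) (i : A) : ContinuousOn (ν i) (closedBall 0 1) :=
  (h.dat.cn i).comp (f := fun x : Pk d => ((), x)) (by fun_prop) (fun x hx => ⟨mem_univ _, hx⟩)

/-- The points near the top are not positions of the other strands (at the left). -/
theorem top_ne_v (h : SD c ν v z j k) (g : SG c v z j k e2 L r) {s : ℝ}
    (hs : s ∈ Icc (0 : ℝ) 1) {i : A} (hiz : i ≠ z) (hik : i ≠ k) :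
    v k + L • e2 - (s * r) • (v k - v j) ≠ v i := by
  intro he
  have h1 := far_ne g (w := -((s * r) • (v k - v j))) (gsmall g hs.1 (by linarith [hs.2])) hiz
    (x := 0) zero_dom.1
  rw [(h.left i hik 0 zero_dom.1 (by rw [zero_dom.2]; norm_num)).1, ← sub_eq_add_neg, he,
    sub_self, norm_zero] at h1
  linarith

theorem top_ne_bz (g : SG c v z j k e2 L r) {s a : ℝ} (hs : s ≤ 1) (ha : 2 ≤ a) :
    v k + L • e2 - (s * r) • (v k - v j) ≠ v k + L • e2 - (a * r) • (v k - v j) := by
  intro he
  have h1 : ((a - s) * r) • (v k - v j) = 0 := by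
    have : ((a - s) * r) • (v k - v j) = (v k + L • e2 - (s * r) • (v k - v j)) -
      (v k + L • e2 - (a * r) • (v k - v j)) := by module
    rw [this, he, sub_self]
  have h2 : ‖((a - s) * r) • (v k - v j)‖ = 0 := by rw [h1, norm_zero]
  rw [norm_smul, g.n1, mul_one, Real.norm_eq_abs] at h2
  have h3 : (a - s) * r = 0 := abs_eq_zero.mp h2
  have h4 : 0 < (a - s) * r := mul_pos (by linarith) g.hr
  linarith

end Geom

/-! ### L2 -/

section L2

variable (c ν : A → Pk d → Vk d) (v : A → Vk d) (z j k : A) (e2 : Vk d) (L r : ℝ)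

/-- The ramp. -/
noncomputable def rmp (t u : ℝ) : ℝ := (1 - t) * lifts u + t * sc u

/-- The family from `hd0` to `hd1`. -/
noncomputable def prepD (t : ℝ) : HData {i : A // i ≠ k} (Pk d) (Vk d) :=
  hd c ν z k (v k - v j) (v k + L • e2 - ((2 + 2 * t) * r) • (v k - v j)) (v k + L • e2) r
    (fun x => c k x + (rmp t (x 0) * L) • e2) (ν k)

theorem prepD_zero : prepD c ν v z j k e2 L r 0 = hd0 c ν v z j k e2 L r := by
  unfold prepD hd0 rmp
  simp only [mul_zero, add_zero, sub_zero, one_mul, zero_mul]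

theorem prepD_one : prepD c ν v z j k e2 L r 1 = hd1 c ν v z j k e2 L r := by
  unfold prepD hd1 rmp
  simp only [mul_one, sub_self, zero_mul, zero_add, one_mul]
  norm_num

variable {c ν v z j k e2 L r}

theorem rmp_of_lt (t : ℝ) {u : ℝ} (hu : u < -1 / 2) : rmp t u = 0 := by
  unfold rmp
  rw [lifts_of_le (by linarith), sc_of_le hu.le]
  ring

theorem rmp_of_ge (t : ℝ) {u : ℝ} (hu : -1 / 4 ≤ u) : rmp t u = 1 := by
  unfold rmp
  rw [lifts_of_ge (by linarith), sc_of_ge (by linarith)]
  ring

/-- **L2**: the family. -/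
theorem prep_fam (h : SD c ν v z j k) (g : SG c v z j k e2 L r) :
    HPFam (Icc (0 : ℝ) 1) 0 (frk d).h (prepD c ν v z j k e2 L r) := by
  have hzk : k ≠ z := h.zk.symm
  have hPh : inner ℝ (v k + L • e2) (frk d).h = 0 := by
    rw [inner_add_left, inner_smul_left, g.e2h, g.vh k hzk, mul_zero, add_zero]
  refine hd_fam h g.n1 (geh g h) g.hr (bz := fun t => v k + L • e2 -
    ((2 + 2 * t) * r) • (v k - v j)) (Pt := fun _ => v k + L • e2)
    (bk := fun t x => c k x + (rmp t (x 0) * L) • e2) (by fun_prop) continuous_const ?_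
    ((continuousOn_nu h k).mono fun x hx => mem_closedBall_zero_iff.mpr hx.1)
    (fun x hx _ => h.dat.nn () (mem_univ _) k x (mem_closedBall_zero_iff.mpr hx)) ?_
    (fun _ _ => hPh) ?_ (fun x hx _ => h.dat.nh () (mem_univ _) k x hx) ?_ ?_ ?_ ?_ ?_ ?_ ?_
  · refine ContinuousOn.add ((continuousOn_c h k).comp continuousOn_snd fun q hq =>
      mem_closedBall_zero_iff.mpr hq.2.1) (Continuous.continuousOn ?_)
    have h1 : Continuous fun q : ℝ × Pk d => rmp q.1 (q.2 0) := by
      unfold rmp
      have h2 : Continuous fun q : ℝ × Pk d => q.2 0 := by fun_prop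
      exact ((continuous_const.sub continuous_fst).mul (continuous_lifts.comp h2)).add
        (continuous_fst.mul (continuous_sc.comp h2))
    exact (h1.mul continuous_const).smul continuous_const
  · intro t _
    rw [inner_sub_left, inner_smul_left, geh g h, mul_zero, sub_zero]
    exact hPh
  · intro t _ x hx _
    rw [inner_add_left, inner_smul_left, g.e2h, mul_zero, add_zero]
    exact h.dat.bh () (mem_univ _) k x hx
  · intro t _ x hx h0 _
    refine ⟨?_, (h.right x hx (by linarith)).2⟩
    show c k x + (rmp t (x 0) * L) • e2 = v k + L • e2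
    rw [(h.right x hx (by linarith)).1, rmp_of_ge t (by linarith), one_mul]
  · intro t ht x hx i hiz hik he
    have h1 := far_ne g (w := -(((2 + 2 * t) * r) • (v k - v j)))
      (gsmall g (by linarith [ht.1]) (by linarith [ht.2])) hiz hx
    rw [← he, ← sub_eq_add_neg, sub_self, norm_zero] at h1
    linarith
  · intro t _ x hx _
    have h1 := ramp_ne h g hx (s := rmp t (x 0)) (a := 1) (fun hu => rmp_of_lt t hu) one_pos
      (by norm_num)
    rwa [one_mul] at h1
  · intro t ht x hx _
    exact ramp_ne h g hx (fun hu => rmp_of_lt t hu) (by linarith [ht.1]) (by linarith [ht.2])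
  · intro t _ x hx _ i hiz hik
    exact ramp_ne_v h g hx (fun hu => rmp_of_lt t hu) hiz hik
  · intro t ht s hs
    exact top_ne_bz g hs.2 (by linarith [ht.1])
  · intro t _ s hs i hiz hik
    exact top_ne_v h g hs hiz hik

theorem hd0_data (h : SD c ν v z j k) (g : SG c v z j k e2 L r) :
    HPData 0 (frk d).h (hd0 c ν v z j k e2 L r) := by
  rw [← prepD_zero]
  exact data_of_fam (prep_fam h g) (left_mem_Icc.mpr zero_le_one)

theorem hd1_data (h : SD c ν v z j k) (g : SG c v z j k e2 L r) :
    HPData 0 (frk d).h (hd1 c ν v z j k e2 L r) := by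
  rw [← prepD_one]
  exact data_of_fam (prep_fam h g) (right_mem_Icc.mpr zero_le_one)

/-- **L2.** -/
theorem prep [Fintype A] (hHom : BlockHPHom) (h : SD c ν v z j k) (g : SG c v z j k e2 L r)
    {ε R M K ε' R' M' K' : ℝ} (hA : HAdm 0 ε R M K (hd0 c ν v z j k e2 L r))
    (hA' : HAdm 0 ε' R' M' K' (hd1 c ν v z j k e2 L r)) :
    VEq (HP 0 (frk d).h ε R M K (hd0 c ν v z j k e2 L r) : Ek d → ℂ)
      (HP 0 (frk d).h ε' R' M' K' (hd1 c ν v z j k e2 L r) : Ek d → ℂ) := by
  rw [← prepD_zero] at hA ⊢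
  rw [← prepD_one] at hA' ⊢
  exact hHom d _ _ ε R M K ε' R' M' K' (prep_fam h g) hA hA'

end L2

/-! ### L3 -/

section L3

variable {c ν : A → Pk d → Vk d} {v : A → Vk d} {z j k : A} {e2 : Vk d} {L r : ℝ}

theorem Glet_eq (h : SD c ν v z j k) (g : SG c v z j k e2 L r) {x : Pk d}
    (hx : x 0 ≤ -3 / 8 ∨ -1 / 8 ≤ x 0) : Glet c v j k x = v k - v j := by
  rcases hx with hx | hx
  · exact Glet_left h g.n1 hx
  · exact Glet_right h g.n1 (by linarith)

theorem Glet_prp (h : SD c ν v z j k) (g : SG c v z j k e2 L r) {x : Pk d} (hx : ‖x‖ = 1) :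
    inner ℝ (Glet c v j k x) (frk d).h = 0 := by
  rcases le_total (x 0) 0 with h0 | h0
  · exact Glet_perp h g.n1 (g.vh k h.zk.symm) (g.vh j h.zj.symm) hx h0
  · rw [Glet_right h g.n1 (by linarith)]
    exact geh g h

theorem nk2_eqv (h : SD c ν v z j k) (g : SG c v z j k e2 L r) {x : Pk d} (hx : ‖x‖ ≤ 1) :
    nk2 c ν v j k x = ν k x + (rfl' (Glet c v j k x) (frk d).h - (frk d).h) :=
  nk2_eq h g.n1 (geh g h) hx

theorem nk2_eqv' (h : SD c ν v z j k) (g : SG c v z j k e2 L r) {x : Pk d} (hx : ‖x‖ ≤ 1)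
    (h0 : -3 / 8 ≤ x 0) : nk2 c ν v j k x = rfl' (Glet c v j k x) (frk d).h := by
  rw [nk2_eqv h g hx, (h.right x hx (by linarith)).2]
  abel

/-- The data with the letter. -/
theorem hd2_data (h : SD c ν v z j k) (g : SG c v z j k e2 L r) :
    HPData 0 (frk d).h (hd2 c ν v z j k e2 L r) := by
  have hzk : k ≠ z := h.zk.symm
  have hr := g.hr
  have hPh : inner ℝ (v k + L • e2) (frk d).h = 0 := by
    rw [inner_add_left, inner_smul_left, g.e2h, g.vh k hzk, mul_zero, add_zero]
  have hlt : ∀ {x : Pk d}, x 0 ≤ -3 / 8 → c k x + (sc (x 0) * L) • e2 +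
      r • (Glet c v j k x - (v k - v j)) = c k x + (sc (x 0) * L) • e2 := fun {x} hx => by
    rw [Glet_eq h g (Or.inl hx), sub_self, smul_zero, add_zero]
  have hge : ∀ {x : Pk d}, ‖x‖ ≤ 1 → -3 / 8 ≤ x 0 → c k x + (sc (x 0) * L) • e2 +
      r • (Glet c v j k x - (v k - v j)) =
        v k + L • e2 + r • (Glet c v j k x - (v k - v j)) := fun {x} hx h0 => by
    rw [(h.right x hx (by linarith)).1, sc_of_ge h0, one_mul]
  have hsc : ∀ {x : Pk d}, x 0 < -1 / 2 → sc (x 0) = 0 := fun {x} hx => sc_of_le hx.le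
  refine data_of_fam (t := (0 : ℝ)) (s := Icc (0 : ℝ) 1) (D := fun _ => hd2 c ν v z j k e2 L r)
    ?_ (left_mem_Icc.mpr zero_le_one)
  refine hd_fam h g.n1 (geh g h) g.hr (bz := fun _ => v k + L • e2 - (4 * r) • (v k - v j))
    (Pt := fun _ => v k + L • e2)
    (bk := fun _ x => c k x + (sc (x 0) * L) • e2 + r • (Glet c v j k x - (v k - v j)))
    continuous_const continuous_const ?_ ?_ ?_ ?_ (fun _ _ => hPh) ?_ ?_ ?_ ?_ ?_ ?_ ?_ ?_ ?_
  · refine ContinuousOn.add (ContinuousOn.add ((continuousOn_c h k).comp continuousOn_snd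
      fun q hq => mem_closedBall_zero_iff.mpr hq.2.1) (Continuous.continuousOn ?_))
      (Continuous.continuousOn ?_)
    · have h2 : Continuous fun q : ℝ × Pk d => q.2 0 := by fun_prop
      exact ((continuous_sc.comp h2).mul continuous_const).smul continuous_const
    · have h3 : Continuous fun q : ℝ × Pk d => Glet c v j k q.2 :=
        (continuous_Glet h).comp continuous_snd
      have h4 : Continuous fun w : Vk d => r • (w - (v k - v j)) := by fun_prop
      exact h4.comp h3
  · refine ContinuousOn.congr (f := fun x => ν k x + (rfl' (Glet c v j k x) (frk d).h -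
      (frk d).h)) ?_ fun x hx => nk2_eqv h g hx.1
    refine ((continuousOn_nu h k).mono fun x hx => mem_closedBall_zero_iff.mpr hx.1).add
      (Continuous.continuousOn ?_)
    exact (continuous_rfl'.comp ((continuous_Glet h).prodMk continuous_const)).sub
      continuous_const
  · intro x hx _
    unfold nk2
    split_ifs with h0
    · exact h.dat.nn () (mem_univ _) k x (mem_closedBall_zero_iff.mpr hx)
    · rw [norm_rfl' (norm_Glet h x), (frk d).hh]
  · intro t _
    rw [inner_sub_left, inner_smul_left, geh g h, mul_zero, sub_zero]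
    exact hPh
  · intro t _ x hx _
    show inner ℝ (c k x + (sc (x 0) * L) • e2 + r • (Glet c v j k x - (v k - v j)))
      (frk d).h = 0
    have h1 : inner ℝ (c k x) (frk d).h = 0 := h.dat.bh () (mem_univ _) k x hx
    rw [inner_add_left, inner_add_left, inner_smul_left, inner_smul_left, inner_sub_left, g.e2h,
      h1, Glet_prp h g hx, geh g h]
    simp
  · intro x hx _
    rw [nk2_eqv h g hx.le, rfl'_of_perp (Glet_prp h g hx), sub_self, add_zero]
    exact h.dat.nh () (mem_univ _) k x hx
  · intro t _ x hx h0 _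
    refine ⟨?_, ?_⟩
    · show c k x + (sc (x 0) * L) • e2 + r • (Glet c v j k x - (v k - v j)) = v k + L • e2
      rw [hge hx (by linarith), Glet_eq h g (Or.inr h0), sub_self, smul_zero, add_zero]
    · rw [nk2_eqv' h g hx (by linarith), Glet_eq h g (Or.inr h0), rfl'_of_perp (geh g h)]
  · intro t _ x hx i hiz hik he
    have h1 := far_ne g (w := -((4 * r) • (v k - v j))) (gsmall g (by norm_num) (by norm_num))
      hiz hx
    rw [← he, ← sub_eq_add_neg, sub_self, norm_zero] at h1
    linarith
  · intro t _ x hx _ he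
    rcases le_total (x 0) (-3 / 8) with h0 | h0
    · have he' : c k x + (sc (x 0) * L) • e2 + r • (Glet c v j k x - (v k - v j)) =
        v k + L • e2 - r • (v k - v j) := he
      rw [hlt h0] at he'
      have h1 := ramp_ne h g hx (s := sc (x 0)) (a := 1) hsc one_pos (by norm_num)
      rw [one_mul] at h1
      exact h1 he'
    · have he' : c k x + (sc (x 0) * L) • e2 + r • (Glet c v j k x - (v k - v j)) =
        v k + L • e2 - r • (v k - v j) := he
      rw [hge hx h0] at he'
      have h1 : r • Glet c v j k x = 0 := by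
        have : r • Glet c v j k x = (v k + L • e2 + r • (Glet c v j k x - (v k - v j))) -
          (v k + L • e2 - r • (v k - v j)) := by module
        rw [this, he', sub_self]
      have h2 : ‖r • Glet c v j k x‖ = r := by
        rw [norm_smul, norm_Glet h, mul_one, Real.norm_eq_abs, abs_of_pos hr]
      rw [h1, norm_zero] at h2
      linarith
  · intro t _ x hx _ he
    have he' : c k x + (sc (x 0) * L) • e2 + r • (Glet c v j k x - (v k - v j)) =
      v k + L • e2 - (4 * r) • (v k - v j) := he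
    rcases le_total (x 0) (-3 / 8) with h0 | h0
    · rw [hlt h0] at he'
      exact ramp_ne h g hx (s := sc (x 0)) (a := 4) hsc (by norm_num) le_rfl he'
    · rw [hge hx h0] at he'
      have h1 : r • Glet c v j k x = (-(3 * r)) • (v k - v j) := by
        have : r • Glet c v j k x = (v k + L • e2 + r • (Glet c v j k x - (v k - v j))) -
          (v k + L • e2 - r • (v k - v j)) := by module
        rw [this, he']
        module
      have h2 : ‖r • Glet c v j k x‖ = r := by
        rw [norm_smul, norm_Glet h, mul_one, Real.norm_eq_abs, abs_of_pos hr]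
      rw [h1, norm_smul, g.n1, mul_one, Real.norm_eq_abs, abs_neg, abs_of_pos (by linarith)]
        at h2
      linarith
  · intro t _ x hx _ i hiz hik he
    have he' : c k x + (sc (x 0) * L) • e2 + r • (Glet c v j k x - (v k - v j)) = v i := he
    rcases le_total (x 0) (-3 / 8) with h0 | h0
    · rw [hlt h0] at he'
      exact ramp_ne_v h g hx hsc hiz hik he'
    · rw [hge hx h0] at he'
      have h1 := far_ne g (w := r • (Glet c v j k x - (v k - v j))) ?_ hiz (x := 0) zero_dom.1
      · rw [(h.left i hik 0 zero_dom.1 (by rw [zero_dom.2]; norm_num)).1, he', sub_self,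
          norm_zero] at h1
        linarith
      · rw [norm_smul, Real.norm_eq_abs, abs_of_pos hr]
        have h2 : ‖Glet c v j k x - (v k - v j)‖ ≤ 2 := by
          refine (norm_sub_le _ _).trans ?_
          rw [norm_Glet h, g.n1]
          norm_num
        nlinarith [g.hr8]
  · intro t _ s hs
    exact top_ne_bz g hs.2 (by norm_num)
  · intro t _ s hs i hiz hik
    exact top_ne_v h g hs hiz hik

/-- **L3**: removal of the letter at the tip. -/
theorem ri [Fintype A] (hRI : BlockRI) (h : SD c ν v z j k) (g : SG c v z j k e2 L r)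
    {ε R M K ε' R' M' K' : ℝ} (hA : HAdm 0 ε R M K (hd1 c ν v z j k e2 L r))
    (hA' : HAdm 0 ε' R' M' K' (hd2 c ν v z j k e2 L r)) :
    VEq (HP 0 (frk d).h ε R M K (hd1 c ν v z j k e2 L r) : Ek d → ℂ)
      (HP 0 (frk d).h ε' R' M' K' (hd2 c ν v z j k e2 L r) : Ek d → ℂ) := by
  have hr := g.hr
  have h2r : 2 * (r / 2) = r := by ring
  refine hRI d _ (hd1 c ν v z j k e2 L r) (hd2 c ν v z j k e2 L r) (Glet c v j k)
    (v k + L • e2 - r • (v k - v j)) (v k - v j) (hd1_data h g) (hd2_data h g) rfl rfl rfl rfl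
    rfl (fun x _ _ => ⟨rfl, rfl, rfl, rfl⟩) ?_ ?_ ?_ (continuous_Glet h).continuousOn
    (fun x _ => norm_Glet h x) (fun x hx => Glet_prp h g hx) (fun x _ hx => Glet_eq h g hx)
    ?_ ε R M K ε' R' M' K' hA hA'
  · intro x _ _
    have e1 : v k + L • e2 - (r / 2) • (v k - v j) =
        v k + L • e2 - r • (v k - v j) + (r / 2) • (v k - v j) := by module
    exact ⟨e1, rfl, rfl, e1, rfl, rfl⟩
  · intro x hx h0
    refine ⟨?_, ?_⟩
    · show c k x + (sc (x 0) * L) • e2 + r • (Glet c v j k x - (v k - v j)) =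
        c k x + (sc (x 0) * L) • e2
      rw [Glet_eq h g (Or.inl h0), sub_self, smul_zero, add_zero]
    · show nk2 c ν v j k x = ν k x
      unfold nk2
      rw [if_pos h0]
  · intro x hx h0 h1
    have h2 := h.right x hx (by linarith)
    refine ⟨?_, h2.2, ?_, nk2_eqv' h g hx h0⟩
    · show c k x + (sc (x 0) * L) • e2 =
        v k + L • e2 - r • (v k - v j) + (2 * (r / 2)) • (v k - v j)
      rw [h2r, h2.1, sc_of_ge h0, one_mul]
      module
    · show c k x + (sc (x 0) * L) • e2 + r • (Glet c v j k x - (v k - v j)) =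
        v k + L • e2 - r • (v k - v j) + (2 * (r / 2)) • Glet c v j k x
      rw [h2r, h2.1, sc_of_ge h0, one_mul]
      module
  · intro i x hx h0 h1
    show 2 * (r / 2) < ‖(if i.1 = z then fun _ => v k + L • e2 - (4 * r) • (v k - v j)
      else c i.1) x - (v k + L • e2 - r • (v k - v j))‖
    rw [h2r]
    by_cases hi : i.1 = z
    · rw [if_pos hi]
      have e1 : v k + L • e2 - (4 * r) • (v k - v j) - (v k + L • e2 - r • (v k - v j)) =
        (-(3 * r)) • (v k - v j) := by module
      rw [e1, norm_smul, g.n1, mul_one, Real.norm_eq_abs, abs_neg, abs_of_pos (by linarith)]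
      linarith
    · rw [if_neg hi]
      have h3 := far_ne g (w := -((1 * r) • (v k - v j))) (gsmall g (by norm_num) (by norm_num))
        hi hx
      rw [one_mul, ← sub_eq_add_neg] at h3
      linarith [g.hr8]

end L3

end Vale.Agent.P268.T.H732
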